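import Vale.Agent.P344.Defs

namespace Vale.Agent.P344

/-- The input `x` shifted cyclically by `t`: its entry in position `k` is `x` at `k + t`. -/
def shiftInput {n : ℕ} (t : ℕ) (x : Fin n → ℂ) : Fin n → ℂ :=
  fun k => x ⟨(k + t) % n, Nat.mod_lt _ k.pos⟩

/-- The circuit `P` on `n` inputs is symmetric under the cyclic shift by `t`: every value it
computes becomes, when the input is shifted by `t`, a nonzero multiple of a value it computes. -/
def ShiftInvariant (n t : ℕ) (P : List Gate) : Prop :=
  ∀ i : ℕ, ∃ i' : ℕ, ∃ c : ℂ, c ≠ 0 ∧ ∀ x : Fin n → ℂ,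
    (run P (List.ofFn (shiftInput t x))).getD i 0 = c * (run P (List.ofFn x)).getD i' 0

end Vale.Agent.P344
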